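import Mathlib

/-! P346: the real-analysis lemma behind `good_weight`. -/

namespace Vale.Agent.P346.H417

open Real

/-- for `y ≥ 240`, `2 y^4 ≤ e^y`. -/
theorem two_mul_pow_four_le_exp {y : ℝ} (hy : 240 ≤ y) : 2 * y ^ 4 ≤ Real.exp y := by
  have h := Real.pow_div_factorial_le_exp y (by linarith) 5
  have h5 : (Nat.factorial 5 : ℝ) = 120 := by norm_num [Nat.factorial]
  rw [h5] at h
  have : 2 * y ^ 4 ≤ y ^ 5 / 120 := by
    have h4 : 0 ≤ y ^ 4 := by positivity
    nlinarith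
  linarith

/-- For `n ≥ 240^4`, `a = n^(-3/4)`, `d = n^(-1/2)`:
`(1/2) n^(-3/4) e^(-√n) ≤ ((1 - (1-a)^n)/(1+d))^n * a`. -/
theorem gw_numeric {n : ℕ} (hn : 240 ^ 4 ≤ n) :
    (1 / 2) * (n : ℝ) ^ (-(3 / 4) : ℝ) * Real.exp (-√(n : ℝ)) ≤
      ((1 - (1 - (n : ℝ) ^ (-(3 / 4) : ℝ)) ^ n) / (1 + (n : ℝ) ^ (-(1 / 2) : ℝ))) ^ n *
        (n : ℝ) ^ (-(3 / 4) : ℝ) := by
  have hn1 : 1 ≤ n := le_trans (by norm_num) hn
  have hn0 : (0 : ℝ) < n := by exact_mod_cast hn1
  have hnR : (1 : ℝ) ≤ n := by exact_mod_cast hn1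
  set a := (n : ℝ) ^ (-(3 / 4) : ℝ) with ha
  set d := (n : ℝ) ^ (-(1 / 2) : ℝ) with hd
  set y := (n : ℝ) ^ (1 / 4 : ℝ) with hy
  have ha0 : 0 < a := by positivity
  have hd0 : 0 < d := by positivity
  have ha1 : a ≤ 1 := Real.rpow_le_one_of_one_le_of_nonpos hnR (by norm_num)
  have hy4 : y ^ 4 = n := by
    rw [hy, ← Real.rpow_natCast, ← Real.rpow_mul hn0.le]; norm_num
  have hy0 : 0 < y := by positivity
  have hy240 : 240 ≤ y := by
    have h1 : (240 : ℝ) ^ 4 ≤ y ^ 4 := by rw [hy4]; exact_mod_cast hn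
    exact le_of_pow_le_pow_left₀ (by norm_num) hy0.le h1
  have han : a * n = y := by
    rw [ha, hy]
    conv_lhs => rw [← Real.rpow_one (n : ℝ)]
    rw [← Real.rpow_mul hn0.le, ← Real.rpow_add hn0]
    norm_num
  have hdn : d * n = √(n : ℝ) := by
    rw [hd, Real.sqrt_eq_rpow]
    conv_lhs => rw [← Real.rpow_one (n : ℝ)]
    rw [← Real.rpow_mul hn0.le, ← Real.rpow_add hn0]
    norm_num
  -- (1 - a)^n ≤ exp(-y)
  have h1 : (1 - a) ^ n ≤ Real.exp (-y) := by
    have h2 : 1 - a ≤ Real.exp (-a) := by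
      have := Real.add_one_le_exp (-a); linarith
    calc (1 - a) ^ n ≤ (Real.exp (-a)) ^ n := by
          apply pow_le_pow_left₀ (by linarith) h2
      _ = Real.exp (-y) := by
          rw [← Real.exp_nat_mul]
          congr 1
          rw [← han]; ring
  have h3 : (n : ℝ) * Real.exp (-y) ≤ 1 / 2 := by
    have h4 := two_mul_pow_four_le_exp hy240
    rw [hy4] at h4
    have h5 : Real.exp y * Real.exp (-y) = 1 := by rw [← Real.exp_add]; simp
    have h6 : 0 < Real.exp (-y) := Real.exp_pos _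
    nlinarith
  have h7 : (1 : ℝ) / 2 ≤ (1 - (1 - a) ^ n) ^ n := by
    have h8 : (1 - Real.exp (-y)) ^ n ≤ (1 - (1 - a) ^ n) ^ n := by
      apply pow_le_pow_left₀ _ (by linarith)
      have : Real.exp (-y) ≤ 1 := Real.exp_le_one_iff.2 (by linarith)
      linarith
    have h9 : 1 + (n : ℝ) * (-Real.exp (-y)) ≤ (1 + (-Real.exp (-y))) ^ n := by
      apply one_add_mul_le_pow
      have : Real.exp (-y) ≤ 1 := Real.exp_le_one_iff.2 (by linarith)
      linarith
    have h10 : (1 + (-Real.exp (-y))) ^ n = (1 - Real.exp (-y)) ^ n := by ring_nf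
    rw [h10] at h9
    linarith
  have h11 : Real.exp (-√(n : ℝ)) ≤ (1 / (1 + d)) ^ n := by
    have h12 : 1 + d ≤ Real.exp d := by
      have := Real.add_one_le_exp d; linarith
    have h13 : Real.exp (-d) ≤ 1 / (1 + d) := by
      rw [Real.exp_neg, ← one_div]
      exact one_div_le_one_div_of_le (by positivity) h12
    calc Real.exp (-√(n : ℝ)) = (Real.exp (-d)) ^ n := by
          rw [← Real.exp_nat_mul]
          congr 1
          rw [← hdn]; ring
      _ ≤ _ := pow_le_pow_left₀ (Real.exp_pos _).le h13 n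
  have h14 : ((1 - (1 - a) ^ n) / (1 + d)) ^ n = (1 - (1 - a) ^ n) ^ n * (1 / (1 + d)) ^ n := by
    rw [← mul_pow]; congr 1; ring
  rw [h14]
  have h15 : 0 < Real.exp (-√(n : ℝ)) := Real.exp_pos _
  calc (1 / 2) * a * Real.exp (-√(n : ℝ)) = ((1 / 2) * Real.exp (-√(n : ℝ))) * a := by ring
    _ ≤ _ := by
        apply mul_le_mul_of_nonneg_right _ ha0.le
        apply mul_le_mul h7 h11 h15.le
        linarith

end Vale.Agent.P346.H417
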